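import Vale.Agent.N139.Main

open Set Filter Topology MeasureTheory ProbabilityTheory
open scoped ENNReal

namespace Vale.Agent.Results.P139.A0BlowupRate

open Vale.Agent.P139.A

/-- Rate and profile of the blow-up, for all large odd powers in dimension twelve.
For `d = 12`, every odd `p ≥ p₀`, every large `α`, all Gaussian families and all `T₀, η > 0`,
on an event of positive probability the lifespan `Ts` is at most `T₀`; at every time `T` of the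
life of the solution `(Ts - T) max |u(T)|^(p-1)` lies between two positive constants, and
after rescaling to a length `ρ` comparable with `(Ts - T)^(1/2)` the solution is `η`-close to
the radial profile `G(|y|²)`. -/
theorem result :
    ∃ p₀ : ℕ, ∀ p : ℕ, Odd p → p₀ ≤ p → ∃ (α₁ c C : ℝ) (G : ℝ → ℂ), 0 < c ∧ Continuous G ∧
      G 0 ≠ 0 ∧ Tendsto G atTop (𝓝 0) ∧
      ∀ α : ℝ, α₁ < α → ∀ (Ω : Type) [MeasurableSpace Ω] (P : Measure Ω) [IsProbabilityMeasure P]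
        (g : (Fin 12 → ℤ) → Ω → ℂ), (∀ n, Measurable (g n)) → iIndepFun g P →
        (∀ n, P.map (g n) = stdComplexGaussian) → ∀ T₀ η : ℝ, 0 < T₀ → 0 < η →
        ∃ E : Set Ω, MeasurableSet E ∧ 0 < P E ∧ ∀ ω ∈ E, ∀ k : ℕ, 6 < k → (k : ℝ) < α - 6 →
          ∃ Ts : ℝ, 0 < Ts ∧ Ts ≤ T₀ ∧ lifespan 12 p k (datum g α ω) = ENNReal.ofReal Ts ∧
            ∀ (T : ℝ) (u : ℝ → (Fin 12 → ℤ) → ℂ), 0 ≤ T → IsSolution 12 p k T u →
              u 0 = datum g α ω →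
              (∃ x, c ≤ (Ts - T) * ‖series (u T) x‖ ^ (p - 1)) ∧
              (∀ x, (Ts - T) * ‖series (u T) x‖ ^ (p - 1) ≤ C) ∧
              ∃ (ρ : ℝ) (x : Fin 12 → ℝ) (z : ℂ), 0 < ρ ∧ c * ρ ^ 2 ≤ Ts - T ∧
                Ts - T ≤ C * ρ ^ 2 ∧ ‖z‖ ^ (p - 1) = ρ ^ 2 ∧ ∀ y : EuclideanSpace ℝ (Fin 12),
                  ‖z * series (u T) (fun i => x i + ρ * y i) - G (‖y‖ ^ 2)‖ ≤ η * (1 + ‖y‖) := by
  obtain ⟨m₁, hm₁⟩ := Vale.Agent.N139.all_modeStable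
  refine ⟨2 * m₁ + 3, fun p hp hp₀ => ?_⟩
  obtain ⟨m, rfl⟩ := hp
  obtain ⟨β, G, hG, hs⟩ := hm₁ m (by omega)
  have hm : 1 ≤ m := by omega
  obtain ⟨α₁, c, C, hc, H⟩ := Vale.Agent.N139.main hm hG hs
  exact ⟨α₁, c, C, G, hc, hG.smooth.continuous, hG.ne_zero,
    Vale.Agent.N139.profile_decay hm hG, H⟩

end Vale.Agent.Results.P139.A0BlowupRate
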