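import Vale.Agent.N139X.Main

open Set MeasureTheory
open scoped ENNReal

namespace Vale.Agent.Results.P139.A0DenseBlowup

open Vale.Agent.N139X

/-- For `d = 12` and every large odd `p` there is `k₀` such that:
1. one smooth function, small in `H^s` (`s` subcritical) and in `L^{p+1}`, added to any datum of
   a given ball of `H^{k₀}` forces blow-up before a given time;
2. for Gaussian data, blow-up before a given time charges every ball of `H^s`;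
3. two-sided bounds for the probability of blow-up before a small time. -/
theorem result :
    ∃ p₀ : ℕ, ∀ p : ℕ, Odd p → p₀ ≤ p → 1 < scr 12 p ∧ ∃ k₀ : ℕ, 6 < k₀ ∧
      (∀ s ε T r : ℝ, 0 ≤ s → s < scr 12 p → 0 < ε → 0 < T → ∃ ψ : Fn 12,
        (∀ j : ℕ, Hs j ψ < ⊤) ∧ Hs s ψ < ENNReal.ofReal ε ∧ ∫ x, ‖ψ x‖ ^ (p + 1) ∂vol 12 < ε ∧
        ∀ w : Fn 12, Hs k₀ w ≤ ENNReal.ofReal r → 0 < life p k₀ (w + ψ) ∧ ∀ k, 6 < k →
          life p k (w + ψ) ≤ ENNReal.ofReal T) ∧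
      (∀ α > (k₀ : ℝ) + 6, ∀ k, Adm 12 k α → ∀ (Ω : Type) [MeasurableSpace Ω] (P : Measure Ω)
        (g : (Fin 12 → ℤ) → Ω → ℂ), Gauss P g → ∀ s ε T : ℝ, 0 ≤ s → s < scr 12 p → 0 < ε →
        0 < T → ∀ v : Tor 12 → ℂ, Integrable v (vol 12) → Hs s v < ⊤ →
        ∃ E, MeasurableSet E ∧ 0 < P E ∧ ∀ o ∈ E, ∃ f, Datum g α k o f ∧
          Hs s (⇑f - v) < ENNReal.ofReal ε ∧ 0 < life p k f ∧ life p k f ≤ ENNReal.ofReal T) ∧
      ∃ B c A : ℝ, 0 < B ∧ 0 < c ∧ ∀ α > (k₀ : ℝ) + 6, ∀ k, Adm 12 k α →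
        ∀ (Ω : Type) [MeasurableSpace Ω] (P : Measure Ω) (g : (Fin 12 → ℤ) → Ω → ℂ), Gauss P g →
        ∀ T ∈ Ioc (0 : ℝ) 1, (∃ E ⊆ Blow g α p k T, MeasurableSet E ∧
          ENNReal.ofReal (Real.exp (-(B ^ α * T ^ (scr 12 p - α)))) ≤ P E) ∧
          P (Blow g α p k T) ≤ ENNReal.ofReal (A * Real.exp (-(c * T ^ (-(2 / (p - 1) : ℝ))))) := by
  obtain ⟨m₁, H⟩ := exists_bub
  have hc : ∀ m : ℕ, 1 ≤ m → 1 < scr 12 (2 * m + 1) := fun m hm => by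
    have : (m : ℝ)⁻¹ ≤ 1 := inv_le_one_of_one_le₀ (by exact_mod_cast hm)
    rw [scr_eq]
    push_cast
    linarith
  have hp0 : ∀ (m k : ℕ) (f : Fn 12), 12 < 2 * k → Hs k f < ⊤ → 0 < life (2 * m + 1) k f :=
    fun m k f hk hf => by
      rw [life_eq hk hf]
      exact Vale.Agent.P139Z.lifespan_pos_of_mem hk (mem_iff.1 hf)
  have hadd : ∀ (k : ℕ) (f g : Fn 12), Hs k f < ⊤ → Hs k g < ⊤ → Hs k (f + g : Fn 12) < ⊤ :=
    fun k f g hf hg => by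
      have h0 := mem_sub (mem_iff.1 hg) (mem_iff.1 hg)
      have h1 := mem_sub (mem_iff.1 hf) (mem_sub h0 (mem_iff.1 hg))
      refine mem_iff.2 ?_
      rw [funext (hat_add f g)]
      simpa using h1
  refine ⟨2 * m₁ + 3, fun p ⟨m, hp⟩ h0 => ?_⟩
  subst hp
  have hm : 1 ≤ m := by omega
  obtain ⟨K, hK, h⟩ := H m (by omega) hm
  refine ⟨hc m hm, K + 1 + 7, by omega, fun s ε T r a1 a2 a3 a4 => ?_,
    fun α hα k hk Ω _ P g hg s ε T a1 a2 a3 a4 v a5 a6 => ?_, ?_⟩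
  · obtain ⟨ψ, b1, b2, b3, b4⟩ := destroy hm h (l := 7) (r := r) (by norm_num) a1 a2 (hc m hm)
      a3 a4
    exact ⟨ψ, b1, b2, b3, fun w hw => ⟨hp0 m _ _ (by omega)
      (hadd _ _ _ (hw.trans_lt ENNReal.ofReal_lt_top) (b1 _)), fun k hk => b4 w hw k (by omega)⟩⟩
  · obtain ⟨E, e1, e2, e3⟩ :=
      charge hm h (by omega) (by push_cast at hα ⊢; linarith) hg hk a1 a2 a3 a4 a5 a6
    refine ⟨E, e1, e2, fun o ho => ?_⟩
    obtain ⟨f, f1, f2, f3⟩ := e3 o ho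
    exact ⟨f, f1, f2, hp0 m k f hk.1 f1.2, f3⟩
  · obtain ⟨B, b1, b2⟩ := lower hm h (β := (K + 1 + 7 : ℕ) + 6) (by push_cast; linarith)
    obtain ⟨c, A, b3, -, b4⟩ := upper (d := 12) hm (β := (K + 1 + 7 : ℕ) + 6)
      (by have : (0 : ℝ) ≤ K := Nat.cast_nonneg K
          push_cast
          linarith)
    refine ⟨B, c, A, b1, b3, fun α hα k hk Ω _ P g hg T hT =>
      ⟨b2 α hα.le Ω P g hg k hk T hT, (b4 α hα.le Ω P g hg k hk.1 T hT).trans_eq ?_⟩⟩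
    push_cast
    rw [add_sub_cancel_right, div_mul_cancel_left₀ two_ne_zero]

end Vale.Agent.Results.P139.A0DenseBlowup
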